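import Vale.Agent.P217.MathlibUsed

/-!
# P217: definitions used in the statement

Formal group laws are Mathlib's `FormalGroup R` (one-dimensional formal group laws over `R`).
-/

namespace Vale.Agent.P217

open MvPowerSeries

section FormalGroups

variable {R : Type*} [CommRing R]

/-- The series `[m]_F(X)` of a formal group law `F`: `[0]_F = 0`, `[m+1]_F(X) = F([m]_F(X), X)`. -/
noncomputable def multSeries (F : FormalGroup R) (m : ℕ) : PowerSeries R :=
  (fun f : PowerSeries R => MvPowerSeries.subst ![f, PowerSeries.X] F.toPowerSeries)^[m] 0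

/-- `f(X) ∈ R[[X]]` is a homomorphism of formal group laws `F → G`:
`f(0) = 0` and `f(F(X,Y)) = G(f(X), f(Y))`. -/
def IsHom (F G : FormalGroup R) (f : PowerSeries R) : Prop :=
  PowerSeries.constantCoeff f = 0 ∧
    (PowerSeries.subst F.toPowerSeries f : MvPowerSeries (Fin 2) R) =
      MvPowerSeries.subst
        ![(PowerSeries.subst (X 0 : MvPowerSeries (Fin 2) R) f : MvPowerSeries (Fin 2) R),
          (PowerSeries.subst (X 1 : MvPowerSeries (Fin 2) R) f : MvPowerSeries (Fin 2) R)]
        G.toPowerSeries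

/-- `f` is an isomorphism of formal group laws `F → G`: a homomorphism whose linear coefficient
is a unit. -/
def IsIso (F G : FormalGroup R) (f : PowerSeries R) : Prop :=
  IsHom F G f ∧ IsUnit (PowerSeries.coeff 1 f)

end FormalGroups

section Honda

/-- The Honda logarithm `∑_{i ≥ 0} X^(p^(n i)) / p^i` over `ℚ_p`. -/
noncomputable def hondaLog (p n : ℕ) [Fact p.Prime] : PowerSeries ℚ_[p] :=
  PowerSeries.mk fun m => ∑ i ∈ Finset.range (m + 1), if m = p ^ (n * i) then ((p : ℚ_[p]) ^ i)⁻¹ else 0

/-- `Γ` is the height `n` Honda formal group law over `𝔽_p`: the reduction mod `p` of the formal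
group law over `ℤ_p` whose logarithm is `∑_{i ≥ 0} X^(p^(n i)) / p^i`. -/
def IsHonda (p n : ℕ) [Fact p.Prime] (Γ : FormalGroup (ZMod p)) : Prop :=
  ∃ H : FormalGroup ℤ_[p], H.map PadicInt.toZMod = Γ ∧
    (PowerSeries.subst (H.map (algebraMap ℤ_[p] ℚ_[p])).toPowerSeries (hondaLog p n) :
        MvPowerSeries (Fin 2) ℚ_[p]) =
      (PowerSeries.subst (X 0 : MvPowerSeries (Fin 2) ℚ_[p]) (hondaLog p n) :
        MvPowerSeries (Fin 2) ℚ_[p]) +
      (PowerSeries.subst (X 1 : MvPowerSeries (Fin 2) ℚ_[p]) (hondaLog p n) :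
        MvPowerSeries (Fin 2) ℚ_[p])

end Honda

section LubinTate

variable (p n : ℕ) [Fact p.Prime]

/-- The Lubin-Tate ring `E₀ = W(𝔽_{p^n})[[u_1, …, u_{n-1}]]`; the variable `u_i` is
`X ⟨i-1, _⟩`. -/
abbrev E0 : Type := MvPowerSeries (Fin (n - 1)) (WittVector p (GaloisField p n))

/-- The residue map `E₀ → 𝔽_{p^n}`. -/
noncomputable def red : E0 p n →+* GaloisField p n :=
  (WittVector.constantCoeff : WittVector p (GaloisField p n) →+* GaloisField p n).comp
    MvPowerSeries.constantCoeff

/-- The height ideals: `I_0 = 0` and `I_h = (p, u_1, …, u_{h-1})` for `h ≥ 1`. -/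
noncomputable def heightIdeal (h : ℕ) : Ideal (E0 p n) :=
  if h = 0 then ⊥
  else Ideal.span ({(p : E0 p n)} ∪ {x | ∃ i : Fin (n - 1), (i : ℕ) + 1 < h ∧ x = X i})

/-- `F` over `E₀` is a universal deformation of the formal group law `Γ` over `𝔽_p ⊆ 𝔽_{p^n}`
(Lubin-Tate): it reduces to `Γ`, and for every complete noetherian local ring `A`, every ring
homomorphism `i : 𝔽_{p^n} → A/𝔪`, and every formal group law `G` over `A` with `G mod 𝔪 = i_* Γ`
there are a unique ring homomorphism `φ : E₀ → A` inducing `i` on residue fields and a unique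
star-isomorphism `ψ : φ_* F → G` (isomorphism with `ψ ≡ X mod 𝔪`). -/
structure IsUniversalDeformation (Γ : FormalGroup (ZMod p)) (F : FormalGroup (E0 p n)) :
    Prop where
  comm : F.IsComm
  reduction : F.map (red p n) = Γ.map (algebraMap (ZMod p) (GaloisField p n))
  universal : ∀ (A : Type) [CommRing A] [IsLocalRing A] [IsNoetherianRing A]
    [IsAdicComplete (IsLocalRing.maximalIdeal A) A]
    (i : GaloisField p n →+* IsLocalRing.ResidueField A) (G : FormalGroup A) [G.IsComm],
    G.map (IsLocalRing.residue A) = (Γ.map (algebraMap (ZMod p) (GaloisField p n))).map i →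
    ∃! x : (E0 p n →+* A) × PowerSeries A,
      (IsLocalRing.residue A).comp x.1 = i.comp (red p n) ∧
      IsIso (F.map x.1) G x.2 ∧ x.2.map (IsLocalRing.residue A) = PowerSeries.X

/-- The coordinates `u_1, …, u_{n-1}` are adapted to the height: for `1 ≤ h ≤ n` the ideal
`I_h = (p, u_1, …, u_{h-1})` is the ideal generated by `p` and the coefficients of `[p]_F(X)` of
degree `< p^h`, i.e. it cuts out the locus where `F` has height at least `h`. -/
def HeightAdapted (F : FormalGroup (E0 p n)) : Prop :=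
  ∀ h : ℕ, 1 ≤ h → h ≤ n → heightIdeal p n h =
    Ideal.span ({(p : E0 p n)} ∪ {x | ∃ j < p ^ h, x = PowerSeries.coeff j (multSeries F p)})

/-- Invariance of an ideal `J ⊆ E₀` under the extended Morava stabilizer group `G_n`.
By universality of `F`, the elements of `G_n = Aut(Γ / 𝔽_{p^n}) ⋊ Gal(𝔽_{p^n}/𝔽_p)` correspond
to the pairs `(φ, g)` where `φ` is a ring automorphism of `E₀` and `g : F → φ_* F` is an
isomorphism of formal group laws over `E₀` (reduce `φ` and `g` to the residue field); the element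
`(φ, g)` acts on `E₀` through `φ`. -/
def IsInvariant (F : FormalGroup (E0 p n)) (J : Ideal (E0 p n)) : Prop :=
  ∀ (φ : E0 p n ≃+* E0 p n) (g : PowerSeries (E0 p n)),
    IsIso F (F.map (φ : E0 p n →+* E0 p n)) g → J.map (φ : E0 p n →+* E0 p n) = J

end LubinTate

/-- The statement of Q1 for given `p`, `n`. -/
def ChaiStatement (p n : ℕ) [Fact p.Prime] : Prop :=
  ∀ (Γ : FormalGroup (ZMod p)), IsHonda p n Γ → ∀ (F : FormalGroup (E0 p n)),
    IsUniversalDeformation p n Γ F → HeightAdapted p n F → ∀ J : Ideal (E0 p n),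
      ((J.IsPrime ∧ IsInvariant p n F J) ↔ ∃ h ≤ n, J = heightIdeal p n h) ∧
      ((J.IsRadical ∧ IsInvariant p n F J) ↔ (J = ⊤ ∨ ∃ h ≤ n, J = heightIdeal p n h))

end Vale.Agent.P217
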