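import Vale.Agent.P217.MathlibUsed

/-!
# P217: definitions used in the statement of the final result (version 2)

Formal group laws are Mathlib's `FormalGroup R` (one-dimensional formal group laws over `R`).
-/

namespace Vale.Agent.P217.LT

open MvPowerSeries

section FormalGroups

variable {R S k l : Type*} [CommRing R] [CommRing S] [CommRing k] [CommRing l]

/-- The series `[m]_F(X)`: `[0]_F = 0`, `[m+1]_F(X) = F([m]_F(X), X)`. -/
noncomputable def multSeries (F : FormalGroup R) (m : ℕ) : PowerSeries R :=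
  (fun f : PowerSeries R => MvPowerSeries.subst ![f, PowerSeries.X] F.toPowerSeries)^[m] 0

/-- `g(X)` is an isomorphism of formal group laws `F → G`: `g(0) = 0`, `g'(0)` is a unit,
`g(F(X,Y)) = G(g(X), g(Y))`. -/
def IsIso (F G : FormalGroup R) (g : PowerSeries R) : Prop :=
  PowerSeries.constantCoeff g = 0 ∧ IsUnit (PowerSeries.coeff 1 g) ∧
    PowerSeries.subst F.toPowerSeries g =
      MvPowerSeries.subst
        ![(PowerSeries.subst (X 0 : MvPowerSeries (Fin 2) R) g : MvPowerSeries (Fin 2) R),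
          (PowerSeries.subst (X 1 : MvPowerSeries (Fin 2) R) g : MvPowerSeries (Fin 2) R)]
        G.toPowerSeries

/-- `φ : R → S` lifts `j : k → l`, and `g` is an isomorphism of formal group laws `φ_* F → G`
over `S` which lifts `γ`. -/
def Lifts (r : R →+* k) (s : S →+* l) (j : k →+* l) (γ : PowerSeries l) (F : FormalGroup R)
    (G : FormalGroup S) (φ : R →+* S) (g : PowerSeries S) : Prop :=
  s.comp φ = j.comp r ∧ IsIso (F.map φ) G g ∧ g.map s = γ

end FormalGroups

variable (p n : ℕ) [Fact p.Prime]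

/-- The Honda logarithm `∑_{i ≥ 0} X^(p^(n i)) / p^i` over `ℚ_p`. -/
noncomputable def hondaLog : PowerSeries ℚ_[p] :=
  PowerSeries.mk fun m => ∑ i ∈ Finset.range (m + 1), if m = p ^ (n * i) then ((p : ℚ_[p]) ^ i)⁻¹ else 0

/-- `Γ` is the height `n` Honda formal group law over `𝔽_p`: the reduction mod `p` of the formal
group law `H` over `ℤ_p` whose logarithm `l` is `∑_{i ≥ 0} X^(p^(n i)) / p^i`, that is
`l(H(X,Y)) = l(X) + l(Y)`. -/
def IsHonda (Γ : FormalGroup (ZMod p)) : Prop :=
  ∃ H : FormalGroup ℤ_[p], H.map PadicInt.toZMod = Γ ∧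
    PowerSeries.subst (H.map (algebraMap ℤ_[p] ℚ_[p])).toPowerSeries (hondaLog p n) =
      (PowerSeries.subst (X 0 : MvPowerSeries (Fin 2) ℚ_[p]) (hondaLog p n) +
        PowerSeries.subst (X 1 : MvPowerSeries (Fin 2) ℚ_[p]) (hondaLog p n) :
          MvPowerSeries (Fin 2) ℚ_[p])

/-- The Lubin-Tate ring `E₀ = W(𝔽_{p^n})[[u_1, …, u_{n-1}]]`; the variable `u_i` is
`X ⟨i-1, _⟩`. -/
abbrev E0 : Type := MvPowerSeries (Fin (n - 1)) (WittVector p (GaloisField p n))

/-- The residue map `E₀ → 𝔽_{p^n}`. -/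
noncomputable def red : E0 p n →+* GaloisField p n :=
  WittVector.constantCoeff.comp MvPowerSeries.constantCoeff

/-- `Γ` considered over `𝔽_{p^n}`. -/
noncomputable def base (Γ : FormalGroup (ZMod p)) : FormalGroup (GaloisField p n) :=
  Γ.map (algebraMap (ZMod p) (GaloisField p n))

/-- The height ideals: `I_0 = 0` and `I_h = (p, u_1, …, u_{h-1})` for `h ≥ 1`. -/
noncomputable def heightIdeal (h : ℕ) : Ideal (E0 p n) :=
  if h = 0 then ⊥
  else Ideal.span ({(p : E0 p n)} ∪ {x | ∃ i : Fin (n - 1), (i : ℕ) + 1 < h ∧ x = X i})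

/-- `F` over `E₀` is a universal deformation of `Γ` over `𝔽_{p^n}` (Lubin-Tate): it reduces to
`Γ`, and for every complete noetherian local ring `A`, every ring homomorphism
`i : 𝔽_{p^n} → A/𝔪`, and every formal group law `G` over `A` with `G mod 𝔪 = i_* Γ` there are a
unique ring homomorphism `φ : E₀ → A` inducing `i` on residue fields and a unique
isomorphism `g : φ_* F → G` with `g ≡ X mod 𝔪`. -/
def IsUniversal (Γ : FormalGroup (ZMod p)) (F : FormalGroup (E0 p n)) : Prop :=
  F.IsComm ∧ F.map (red p n) = base p n Γ ∧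
    ∀ (A : Type) [CommRing A] [IsLocalRing A] [IsNoetherianRing A]
      [IsAdicComplete (IsLocalRing.maximalIdeal A) A]
      (i : GaloisField p n →+* IsLocalRing.ResidueField A) (G : FormalGroup A), G.IsComm →
      G.map (IsLocalRing.residue A) = (base p n Γ).map i →
      ∃! x : (E0 p n →+* A) × PowerSeries A,
        Lifts (red p n) (IsLocalRing.residue A) i PowerSeries.X F G x.1 x.2

/-- The coordinates `u_1, …, u_{n-1}` are adapted to the height: for `1 ≤ h ≤ n` the ideal
`I_h = (p, u_1, …, u_{h-1})` is the ideal generated by `p` and the coefficients of `[p]_F(X)` of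
degree `< p^h`, i.e. it cuts out the locus where `F` has height at least `h`. -/
def HeightAdapted (F : FormalGroup (E0 p n)) : Prop :=
  ∀ h : ℕ, 1 ≤ h → h ≤ n → heightIdeal p n h =
    Ideal.span ({(p : E0 p n)} ∪ {x | ∃ j < p ^ h, x = PowerSeries.coeff j (multSeries F p)})

/-- `φ : E₀ → E₀` is the action of the element `(γ, σ)` of the extended Morava stabilizer group
`G_n = Aut(Γ/𝔽_{p^n}) ⋊ Gal(𝔽_{p^n}/𝔽_p)`: it lifts `σ`, and there is an isomorphism `φ_* F → F`
lifting the automorphism `γ` of `Γ` over `𝔽_{p^n}`. -/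
def Acts (Γ : FormalGroup (ZMod p)) (F : FormalGroup (E0 p n))
    (σ : GaloisField p n ≃+* GaloisField p n) (γ : PowerSeries (GaloisField p n))
    (φ : E0 p n →+* E0 p n) : Prop :=
  IsIso (base p n Γ) (base p n Γ) γ ∧
    ∃ g, Lifts (red p n) (red p n) (σ : GaloisField p n →+* GaloisField p n) γ F F φ g

/-- `J` is invariant under the extended Morava stabilizer group. -/
def IsInvariant (Γ : FormalGroup (ZMod p)) (F : FormalGroup (E0 p n)) (J : Ideal (E0 p n)) :
    Prop :=
  ∀ σ γ φ, Acts p n Γ F σ γ φ → J.map φ = J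

end Vale.Agent.P217.LT
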