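import Mathlib.Algebra.CharP.Subring
import Mathlib.Algebra.Order.Ring.Star
import Mathlib.Algebra.Order.Star.Real
import Mathlib.Analysis.Normed.Field.Approximation
import Mathlib.Analysis.Normed.Field.Instances
import Mathlib.Analysis.Normed.Field.Krasner
import Mathlib.Analysis.Normed.Module.Completion
import Mathlib.Computability.Reduce
import Mathlib.Data.Finsupp.Pointwise
import Mathlib.Data.Int.Star
import Mathlib.Data.Nat.Choose.Dvd
import Mathlib.Data.Nat.Choose.Lucas
import Mathlib.Dynamics.Flow
import Mathlib.NumberTheory.Padics.RingHoms
import Mathlib.Order.CompletePartialOrder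
import Mathlib.RingTheory.AdicCompletion.Completeness
import Mathlib.RingTheory.AdicCompletion.Noetherian
import Mathlib.RingTheory.Flat.TorsionFree
import Mathlib.RingTheory.FormalGroup.Basic
import Mathlib.RingTheory.Henselian
import Mathlib.RingTheory.Ideal.Quotient.Index
import Mathlib.RingTheory.IntegralClosure.IsIntegral.AlmostIntegral
import Mathlib.RingTheory.LaurentSeries
import Mathlib.RingTheory.PicardGroup
import Mathlib.RingTheory.PowerSeries.Derivative
import Mathlib.RingTheory.PowerSeries.Expand
import Mathlib.RingTheory.PowerSeries.WeierstrassPreparation
import Mathlib.RingTheory.RegularLocalRing.Defs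
import Mathlib.RingTheory.RootsOfUnity.AlgebraicallyClosed
import Mathlib.RingTheory.SimpleRing.Principal
import Mathlib.RingTheory.TotallySplit
import Mathlib.RingTheory.WittVector.DiscreteValuationRing
import Mathlib.RingTheory.WittVector.TeichmullerSeries
import Mathlib.Tactic
import Mathlib.Topology.Algebra.Valued.NormedValued
import Mathlib.Topology.Connected.Separation
import Mathlib.Topology.MetricSpace.Ultra.TotallySeparated
import Mathlib.Topology.Perfect

/-! The part of Mathlib that the development of this folder uses. -/
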